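import Vale.Agent.Lib.P047.JuntaBound

namespace Vale.Agent.Results.P047.B_junta

open Vale.Agent.Lib.P047

/-- Level-one Fourier bound for Boolean functions `f` whose indicator `(1 + f) / 2` is a nonnegative
combination of subcube indicators (a conical junta), in terms of the average codimension `K` of the
cubes used; if all cubes used have codimension at most `k` then `f` has Fourier degree at most `k`
and the squared level-one sum is at most `(4 / e) k`. -/
theorem result {n : ℕ} (f : (Fin n → Bool) → ℝ) (hf : ∀ x, f x = 1 ∨ f x = -1)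
    (α : (Fin n → Option Bool) → ℝ) (hα : ∀ c, 0 ≤ α c)
    (hrep : ∀ x, (1 + f x) / 2 = ∑ c, α c * cubeInd c x) :
    (∀ K : ℝ, 0 ≤ K →
      ∑ c, α c * (1 / 2 : ℝ) ^ cubeCodim c * (cubeCodim c : ℝ)
        ≤ K * cubeMean (fun x => (1 + f x) / 2) →
      levelOneSum f ^ 2 ≤ 8 * (cubeMean (fun x => (1 + f x) / 2)) ^ 2 *
          Real.log (1 / cubeMean (fun x => (1 + f x) / 2)) * K ∧
        levelOneSum f ^ 2 ≤ 4 / Real.exp 1 * K) ∧
    (∀ k : ℕ, (∀ c, α c ≠ 0 → cubeCodim c ≤ k) →
      levelOneSum f ^ 2 ≤ 4 / Real.exp 1 * k ∧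
        ∀ S : Finset (Fin n), k < S.card →
          cubeMean (fun x => f x * ∏ i ∈ S, bitSign (x i)) = 0) :=
  ⟨fun K hK0 hK => junta_main f hf α hα hrep K hK0 hK,
    fun k hk => ⟨junta_width f hf α hα hrep k hk,
      fun S hS => mean_char_zero_of_rep f α hrep k hk S hS⟩⟩

end Vale.Agent.Results.P047.B_junta
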