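import Vale.Agent.Results.P047.A1_bound
import Vale.Agent.Results.P047.B_junta

namespace Vale.Agent.Results.P047.A00_master

/-- Both results together: the constant factor `33/40` for the level-one sum of every Boolean function
of Fourier degree at most `d`, and the square-root bound for conical juntas of bounded (average) codimension. -/
theorem result :
    (∀ (n d : ℕ), 3 ≤ d → ∀ f : (Fin n → Bool) → ℝ, (∀ x, f x = 1 ∨ f x = -1) →
      (∀ S : Finset (Fin n), d < S.card → Vale.Agent.Lib.P047h.fourierCoeff f S = 0) →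
      ∑ i, Vale.Agent.Lib.P047h.fourierCoeff f {i} ≤ (33 / 40 : ℝ) * d) ∧
    (∀ (n : ℕ) (f : (Fin n → Bool) → ℝ), (∀ x, f x = 1 ∨ f x = -1) →
      ∀ (α : (Fin n → Option Bool) → ℝ), (∀ c, 0 ≤ α c) →
      (∀ x, (1 + f x) / 2 = ∑ c, α c * Vale.Agent.Lib.P047.cubeInd c x) →
      (∀ K : ℝ, 0 ≤ K →
        ∑ c, α c * (1 / 2 : ℝ) ^ Vale.Agent.Lib.P047.cubeCodim c * (Vale.Agent.Lib.P047.cubeCodim c : ℝ)
          ≤ K * Vale.Agent.Lib.P047.cubeMean (fun x => (1 + f x) / 2) →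
        Vale.Agent.Lib.P047.levelOneSum f ^ 2 ≤ 8 * (Vale.Agent.Lib.P047.cubeMean (fun x => (1 + f x) / 2)) ^ 2 *
            Real.log (1 / Vale.Agent.Lib.P047.cubeMean (fun x => (1 + f x) / 2)) * K ∧
          Vale.Agent.Lib.P047.levelOneSum f ^ 2 ≤ 4 / Real.exp 1 * K) ∧
      (∀ k : ℕ, (∀ c, α c ≠ 0 → Vale.Agent.Lib.P047.cubeCodim c ≤ k) →
        Vale.Agent.Lib.P047.levelOneSum f ^ 2 ≤ 4 / Real.exp 1 * k ∧
          ∀ S : Finset (Fin n), k < S.card →
            Vale.Agent.Lib.P047.cubeMean (fun x => f x * ∏ i ∈ S, Vale.Agent.Lib.P047.bitSign (x i)) = 0)) :=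
  ⟨fun n d hd f hf hdeg => Vale.Agent.Results.P047.A1_bound.result n d hd f hf hdeg,
    fun _ f hf α hα hrep => Vale.Agent.Results.P047.B_junta.result f hf α hα hrep⟩

end Vale.Agent.Results.P047.A00_master
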