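import Vale.Agent.Lib.P047C.BootFinal
import Vale.Agent.Results.P047.A00_master

namespace Vale.Agent.Results.P047.A000_all

/-- All the bounds together: the level-one sum is `O(D / √(log D))` in the certificate complexity
`D`, so `O(d / √(log d))` for monotone functions of degree `d`; the constant factor `33/40` for all
Boolean functions of degree `d`; and the square-root bound for conical juntas. -/
theorem result :
    (∀ (n D : ℕ), 2 ≤ D → ∀ f : (Fin n → Bool) → ℝ, (∀ x, f x = 1 ∨ f x = -1) →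
      (∀ x, ∃ S : Finset (Fin n), S.card ≤ D ∧ ∀ y, (∀ i ∈ S, y i = x i) → f y = f x) →
      ∑ i, Vale.Agent.Lib.P047h.fourierCoeff f {i} ≤
        13 * Real.sqrt (Real.sqrt (1 - ((∑ x, f x) / 2 ^ n) ^ 2)) * D / Real.sqrt (Real.log D)) ∧
    (∀ (n d : ℕ), 2 ≤ d → ∀ f : (Fin n → Bool) → ℝ, (∀ x, f x = 1 ∨ f x = -1) → Monotone f →
      (∀ S : Finset (Fin n), d < S.card → Vale.Agent.Lib.P047h.fourierCoeff f S = 0) →
      ∑ i, Vale.Agent.Lib.P047h.fourierCoeff f {i} ≤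
        13 * Real.sqrt (Real.sqrt (1 - ((∑ x, f x) / 2 ^ n) ^ 2)) * d / Real.sqrt (Real.log d)) ∧
    (∀ (n d : ℕ), 3 ≤ d → ∀ f : (Fin n → Bool) → ℝ, (∀ x, f x = 1 ∨ f x = -1) →
      (∀ S : Finset (Fin n), d < S.card → Vale.Agent.Lib.P047h.fourierCoeff f S = 0) →
      ∑ i, Vale.Agent.Lib.P047h.fourierCoeff f {i} ≤ (33 / 40 : ℝ) * d) ∧
    (∀ (n : ℕ) (f : (Fin n → Bool) → ℝ), (∀ x, f x = 1 ∨ f x = -1) →
      ∀ (α : (Fin n → Option Bool) → ℝ), (∀ c, 0 ≤ α c) →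
      (∀ x, (1 + f x) / 2 = ∑ c, α c * Vale.Agent.Lib.P047.cubeInd c x) →
      (∀ K : ℝ, 0 ≤ K →
        ∑ c, α c * (1 / 2 : ℝ) ^ Vale.Agent.Lib.P047.cubeCodim c * (Vale.Agent.Lib.P047.cubeCodim c : ℝ)
          ≤ K * Vale.Agent.Lib.P047.cubeMean (fun x => (1 + f x) / 2) →
        Vale.Agent.Lib.P047.levelOneSum f ^ 2 ≤ 8 * (Vale.Agent.Lib.P047.cubeMean (fun x => (1 + f x) / 2)) ^ 2 *
            Real.log (1 / Vale.Agent.Lib.P047.cubeMean (fun x => (1 + f x) / 2)) * K ∧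
          Vale.Agent.Lib.P047.levelOneSum f ^ 2 ≤ 4 / Real.exp 1 * K) ∧
      (∀ k : ℕ, (∀ c, α c ≠ 0 → Vale.Agent.Lib.P047.cubeCodim c ≤ k) →
        Vale.Agent.Lib.P047.levelOneSum f ^ 2 ≤ 4 / Real.exp 1 * k ∧
          ∀ S : Finset (Fin n), k < S.card →
            Vale.Agent.Lib.P047.cubeMean (fun x => f x * ∏ i ∈ S, Vale.Agent.Lib.P047.bitSign (x i)) = 0)) :=
  ⟨fun _ D hD f hf hc => Vale.Agent.Lib.P047C.Boot.level_one_cert D hD f hf hc,
    fun _ d hd f hf hm hdeg => Vale.Agent.Lib.P047C.Boot.level_one_mono d hd f hf hm hdeg,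
    Vale.Agent.Results.P047.A00_master.result.1, Vale.Agent.Results.P047.A00_master.result.2⟩

end Vale.Agent.Results.P047.A000_all
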