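import Vale.Agent.Lib.P047C.BootFinal
import Vale.Agent.Results.P047.A00_master

namespace Vale.Agent.Results.P047.A00_aboot

/-- The level-one sum of a Boolean function is at most `13 V^(1/4) D / √(log D)` when every point has a
certificate of size at most `D`, where `V = 1 - (E f)^2` is the variance; for monotone Boolean functions
the same holds with `D` replaced by the Fourier degree `d`, so their total influence is `O(d / √(log d))`.
It is stated together with the constant factor `33/40` for all Boolean functions of degree `d`, and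
the square-root bound for conical juntas. -/
theorem result :
    (∀ (n D : ℕ), 2 ≤ D → ∀ f : (Fin n → Bool) → ℝ, (∀ x, f x = 1 ∨ f x = -1) →
      (∀ x, ∃ S : Finset (Fin n), S.card ≤ D ∧ ∀ y, (∀ i ∈ S, y i = x i) → f y = f x) →
      ∑ i, Vale.Agent.Lib.P047h.fourierCoeff f {i} ≤
          13 * √(√(1 - ((∑ x, f x) / 2 ^ n) ^ 2)) * D / √(Real.log D) ∧
      ∑ i, Vale.Agent.Lib.P047h.fourierCoeff f {i} ≤ 13 * D / √(Real.log D)) ∧
    (∀ (n d : ℕ), 2 ≤ d → ∀ f : (Fin n → Bool) → ℝ, (∀ x, f x = 1 ∨ f x = -1) → Monotone f →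
      (∀ S : Finset (Fin n), d < S.card → Vale.Agent.Lib.P047h.fourierCoeff f S = 0) →
      ∑ i, Vale.Agent.Lib.P047h.fourierCoeff f {i} ≤
          13 * √(√(1 - ((∑ x, f x) / 2 ^ n) ^ 2)) * d / √(Real.log d) ∧
      ∑ i, Vale.Agent.Lib.P047h.fourierCoeff f {i} ≤ 13 * d / √(Real.log d)) ∧
    (∀ (n d : ℕ), 3 ≤ d → ∀ f : (Fin n → Bool) → ℝ, (∀ x, f x = 1 ∨ f x = -1) →
      (∀ S : Finset (Fin n), d < S.card → Vale.Agent.Lib.P047h.fourierCoeff f S = 0) →
      ∑ i, Vale.Agent.Lib.P047h.fourierCoeff f {i} ≤ (33 / 40 : ℝ) * d) ∧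
    (∀ (n : ℕ) (f : (Fin n → Bool) → ℝ), (∀ x, f x = 1 ∨ f x = -1) →
      ∀ (α : (Fin n → Option Bool) → ℝ), (∀ c, 0 ≤ α c) →
      (∀ x, (1 + f x) / 2 = ∑ c, α c * Vale.Agent.Lib.P047.cubeInd c x) →
      (∀ K : ℝ, 0 ≤ K →
        ∑ c, α c * (1 / 2 : ℝ) ^ Vale.Agent.Lib.P047.cubeCodim c * (Vale.Agent.Lib.P047.cubeCodim c : ℝ)
          ≤ K * Vale.Agent.Lib.P047.cubeMean (fun x => (1 + f x) / 2) →
        Vale.Agent.Lib.P047.levelOneSum f ^ 2 ≤ 8 * (Vale.Agent.Lib.P047.cubeMean (fun x => (1 + f x) / 2)) ^ 2 *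
            Real.log (1 / Vale.Agent.Lib.P047.cubeMean (fun x => (1 + f x) / 2)) * K ∧
          Vale.Agent.Lib.P047.levelOneSum f ^ 2 ≤ 4 / Real.exp 1 * K) ∧
      (∀ k : ℕ, (∀ c, α c ≠ 0 → Vale.Agent.Lib.P047.cubeCodim c ≤ k) →
        Vale.Agent.Lib.P047.levelOneSum f ^ 2 ≤ 4 / Real.exp 1 * k ∧
          ∀ S : Finset (Fin n), k < S.card →
            Vale.Agent.Lib.P047.cubeMean (fun x => f x * ∏ i ∈ S, Vale.Agent.Lib.P047.bitSign (x i)) = 0)) := by
  have hsimple : ∀ (D : ℕ) (V L : ℝ), 2 ≤ D → V ≤ 1 →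
      L ≤ 13 * √(√V) * D / √(Real.log D) → L ≤ 13 * D / √(Real.log D) := by
    intro D V L hD hV hL
    refine hL.trans ?_
    have h1 : √(√V) ≤ 1 := by
      refine Real.sqrt_le_one.2 ?_
      exact Real.sqrt_le_one.2 hV
    have h2 : (0 : ℝ) ≤ D := Nat.cast_nonneg _
    have h3 : (0 : ℝ) ≤ √(Real.log D) := Real.sqrt_nonneg _
    refine div_le_div_of_nonneg_right ?_ h3
    have h4 : (0 : ℝ) ≤ √(√V) := Real.sqrt_nonneg _
    nlinarith [mul_le_mul_of_nonneg_right h1 h2]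
  have hV : ∀ (n : ℕ) (f : (Fin n → Bool) → ℝ), 1 - ((∑ x, f x) / 2 ^ n) ^ 2 ≤ 1 := by
    intro n f
    nlinarith [sq_nonneg ((∑ x, f x) / 2 ^ n)]
  refine ⟨fun n D hD f hb hcert => ?_, fun n d hd f hb hm hdeg => ?_,
    Vale.Agent.Results.P047.A00_master.result.1, Vale.Agent.Results.P047.A00_master.result.2⟩
  · have h := Vale.Agent.Lib.P047C.Boot.level_one_cert D hD f hb hcert
    exact ⟨h, hsimple D _ _ hD (hV n f) h⟩
  · have h := Vale.Agent.Lib.P047C.Boot.level_one_mono d hd f hb hm hdeg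
    exact ⟨h, hsimple d _ _ hd (hV n f) h⟩

end Vale.Agent.Results.P047.A00_aboot
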