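import Vale.Agent.Results.P047.A00_cert
import Vale.Agent.Results.P047.A00_master

namespace Vale.Agent.Results.P047.A00_all

/-- All the bounds together: the certificate bound `o(D)`, the bound `o(d)` for monotone functions of
degree `d`, the constant factor `33/40` for all Boolean functions of degree `d`, and the square-root
bound for conical juntas. -/
theorem result :
    (∀ (n : ℕ) (f : (Fin n → Bool) → ℝ), (∀ x, f x = 1 ∨ f x = -1) → ∀ D : ℕ,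
      (∀ x, ∃ S : Finset (Fin n), S.card ≤ D ∧ ∀ y, (∀ i ∈ S, y i = x i) → f y = f x) →
      (∀ (θ : ℝ) (m : ℕ), 0 ≤ θ → θ ≤ 1 → 4 ^ m ≤ D →
        ∑ i, Vale.Agent.Lib.P047h.fourierCoeff f {i} ≤
          (D : ℝ) * (θ + 2 * (1 - θ ^ 2 / 2) ^ m)) ∧
      (∀ m : ℕ, 1 ≤ m → 4 ^ m ≤ D →
        ∑ i, Vale.Agent.Lib.P047h.fourierCoeff f {i} ≤
          (D : ℝ) * (Real.sqrt (2 * Real.log m / m) + 2 / m))) ∧
    (∀ (n : ℕ) (f : (Fin n → Bool) → ℝ), (∀ x, f x = 1 ∨ f x = -1) → Monotone f → ∀ d : ℕ,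
      (∀ S : Finset (Fin n), d < S.card → Vale.Agent.Lib.P047h.fourierCoeff f S = 0) →
      ∀ m : ℕ, 1 ≤ m → 4 ^ m ≤ d →
        ∑ i, Vale.Agent.Lib.P047h.fourierCoeff f {i} ≤
          (d : ℝ) * (Real.sqrt (2 * Real.log m / m) + 2 / m)) ∧
    (∀ ε : ℝ, 0 < ε → ∃ d₀ : ℕ, ∀ d : ℕ, d₀ ≤ d → ∀ (n : ℕ) (f : (Fin n → Bool) → ℝ),
      (∀ x, f x = 1 ∨ f x = -1) →
      ((∀ x, ∃ S : Finset (Fin n), S.card ≤ d ∧ ∀ y, (∀ i ∈ S, y i = x i) → f y = f x) ∨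
        (Monotone f ∧
          ∀ S : Finset (Fin n), d < S.card → Vale.Agent.Lib.P047h.fourierCoeff f S = 0)) →
      ∑ i, Vale.Agent.Lib.P047h.fourierCoeff f {i} ≤ ε * d) ∧
    (∀ (n d : ℕ), 3 ≤ d → ∀ f : (Fin n → Bool) → ℝ, (∀ x, f x = 1 ∨ f x = -1) →
      (∀ S : Finset (Fin n), d < S.card → Vale.Agent.Lib.P047h.fourierCoeff f S = 0) →
      ∑ i, Vale.Agent.Lib.P047h.fourierCoeff f {i} ≤ (33 / 40 : ℝ) * d) ∧
    (∀ (n : ℕ) (f : (Fin n → Bool) → ℝ), (∀ x, f x = 1 ∨ f x = -1) →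
      ∀ (α : (Fin n → Option Bool) → ℝ), (∀ c, 0 ≤ α c) →
      (∀ x, (1 + f x) / 2 = ∑ c, α c * Vale.Agent.Lib.P047.cubeInd c x) →
      (∀ K : ℝ, 0 ≤ K →
        ∑ c, α c * (1 / 2 : ℝ) ^ Vale.Agent.Lib.P047.cubeCodim c * (Vale.Agent.Lib.P047.cubeCodim c : ℝ)
          ≤ K * Vale.Agent.Lib.P047.cubeMean (fun x => (1 + f x) / 2) →
        Vale.Agent.Lib.P047.levelOneSum f ^ 2 ≤ 8 * (Vale.Agent.Lib.P047.cubeMean (fun x => (1 + f x) / 2)) ^ 2 *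
            Real.log (1 / Vale.Agent.Lib.P047.cubeMean (fun x => (1 + f x) / 2)) * K ∧
          Vale.Agent.Lib.P047.levelOneSum f ^ 2 ≤ 4 / Real.exp 1 * K) ∧
      (∀ k : ℕ, (∀ c, α c ≠ 0 → Vale.Agent.Lib.P047.cubeCodim c ≤ k) →
        Vale.Agent.Lib.P047.levelOneSum f ^ 2 ≤ 4 / Real.exp 1 * k ∧
          ∀ S : Finset (Fin n), k < S.card →
            Vale.Agent.Lib.P047.cubeMean (fun x => f x * ∏ i ∈ S, Vale.Agent.Lib.P047.bitSign (x i)) = 0)) :=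
  ⟨Vale.Agent.Results.P047.A00_cert.result.1, Vale.Agent.Results.P047.A00_cert.result.2.1,
    Vale.Agent.Results.P047.A00_cert.result.2.2, Vale.Agent.Results.P047.A00_master.result.1,
    Vale.Agent.Results.P047.A00_master.result.2⟩

end Vale.Agent.Results.P047.A00_all
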