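import Vale.Agent.Lib.P047C.Rate

namespace Vale.Agent.Results.P047.A00_cert

open Vale.Agent.Lib.P047C

/-- The level-one sum of a Boolean function is `o(D)` in its certificate complexity `D`, with an
explicit rate, and hence `o(d)` in its degree `d` for monotone Boolean functions. -/
theorem result :
    (∀ (n : ℕ) (f : (Fin n → Bool) → ℝ), (∀ x, f x = 1 ∨ f x = -1) → ∀ D : ℕ,
      (∀ x, ∃ S : Finset (Fin n), S.card ≤ D ∧ ∀ y, (∀ i ∈ S, y i = x i) → f y = f x) →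
      (∀ (θ : ℝ) (m : ℕ), 0 ≤ θ → θ ≤ 1 → 4 ^ m ≤ D →
        ∑ i, Vale.Agent.Lib.P047h.fourierCoeff f {i} ≤
          (D : ℝ) * (θ + 2 * (1 - θ ^ 2 / 2) ^ m)) ∧
      (∀ m : ℕ, 1 ≤ m → 4 ^ m ≤ D →
        ∑ i, Vale.Agent.Lib.P047h.fourierCoeff f {i} ≤
          (D : ℝ) * (Real.sqrt (2 * Real.log m / m) + 2 / m))) ∧
    (∀ (n : ℕ) (f : (Fin n → Bool) → ℝ), (∀ x, f x = 1 ∨ f x = -1) → Monotone f → ∀ d : ℕ,
      (∀ S : Finset (Fin n), d < S.card → Vale.Agent.Lib.P047h.fourierCoeff f S = 0) →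
      ∀ m : ℕ, 1 ≤ m → 4 ^ m ≤ d →
        ∑ i, Vale.Agent.Lib.P047h.fourierCoeff f {i} ≤
          (d : ℝ) * (Real.sqrt (2 * Real.log m / m) + 2 / m)) ∧
    (∀ ε : ℝ, 0 < ε → ∃ d₀ : ℕ, ∀ d : ℕ, d₀ ≤ d → ∀ (n : ℕ) (f : (Fin n → Bool) → ℝ),
      (∀ x, f x = 1 ∨ f x = -1) →
      ((∀ x, ∃ S : Finset (Fin n), S.card ≤ d ∧ ∀ y, (∀ i ∈ S, y i = x i) → f y = f x) ∨
        (Monotone f ∧
          ∀ S : Finset (Fin n), d < S.card → Vale.Agent.Lib.P047h.fourierCoeff f S = 0)) →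
      ∑ i, Vale.Agent.Lib.P047h.fourierCoeff f {i} ≤ ε * d) := by
  refine ⟨fun n f hB D hcert => ⟨fun θ m h0 h1 hm => ?_, fun m hm hmD => cert_rate f hB D hcert hm hmD⟩,
    fun n f hB hmono d hdeg m hm hmd => cert_rate f hB d (mono_cert f hB hmono hdeg) hm hmd,
    fun ε hε => ?_⟩
  · rw [L1_eq]
    exact cert_bound f hB D hcert h0 h1 hm
  · obtain ⟨d₀, hd₀⟩ := cert_little_o hε
    refine ⟨d₀, fun d hd n f hB hcase => ?_⟩
    rw [L1_eq]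
    rcases hcase with hcert | ⟨hmono, hdeg⟩
    · exact hd₀ d hd n f hB hcert
    · exact hd₀ d hd n f hB (mono_cert f hB hmono hdeg)

end Vale.Agent.Results.P047.A00_cert
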