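import Vale.Agent.Lib.P047h.PolyBound

/-!
A constant-factor improvement on the bound `M(d) ≤ d` for the Gopalan-Servedio problem.
-/

namespace Vale.Agent.Results.P047.A1_bound

open Vale.Agent.Lib.P047h

/-- For every Boolean function `f` on the `n`-cube of Fourier degree at most `d`, with `d ≥ 3`,
the sum of the degree-one Fourier coefficients is at most `(33/40) d`. -/
theorem result (n d : ℕ) (hd : 3 ≤ d) (f : (Fin n → Bool) → ℝ)
    (hf : ∀ x, f x = 1 ∨ f x = -1)
    (hdeg : ∀ S : Finset (Fin n), d < S.card → fourierCoeff f S = 0) :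
    ∑ i, fourierCoeff f {i} ≤ (33 / 40 : ℝ) * d :=
  level_one_bound d hd f hf hdeg

end Vale.Agent.Results.P047.A1_bound
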