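import Vale.Agent.Lib.P047.Main

namespace Vale.Agent.Results.P047.A_main

open Vale.Agent.Lib.P047

/-- For every Boolean function on the discrete cube of Fourier degree at most `d`, `d ≥ 2`,
the level-one Fourier coefficients have absolute sum at most `(24/25) d`. -/
theorem result {n d : ℕ} (hd : 2 ≤ d) (f : (Fin n → Bool) → ℝ)
    (hb : IsBooleanFn f) (hdeg : DegreeLE f d) :
    ∑ i, |fhat f {i}| ≤ 24 / 25 * (d : ℝ) :=
  sum_abs_fhat_le hd hb hdeg

end Vale.Agent.Results.P047.A_main
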